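import Vale.Agent.P022.H567.Cft

/-!
P022, Artin reciprocity: the valuation does not change at an unramified prime.
-/

open NumberField IsDedekindDomain Module
open scoped Pointwise

noncomputable section

namespace Vale.Agent.P022.H269

open Vale.Agent.P022.C

variable {K L : Type} [Field K] [NumberField K] [Field L] [NumberField L] [Algebra K L]

omit [NumberField K] [NumberField L] in
theorem liesOver_dn (v : HeightOneSpectrum (𝓞 K)) (w : HeightOneSpectrum (𝓞 L))
    (h : dn K w.asIdeal = v.asIdeal) : w.asIdeal.LiesOver v.asIdeal := ⟨h.symm⟩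

/-- the ramification index is `1` if the inertia group is trivial -/
theorem ram_one [IsGalois K L] (v : HeightOneSpectrum (𝓞 K)) (w : HeightOneSpectrum (𝓞 L))
    (h : dn K w.asIdeal = v.asIdeal)
    (hI : ∀ g : L ≃ₐ[K] L, (∀ x : 𝓞 L, g • x - x ∈ w.asIdeal) → g = 1) :
    v.asIdeal.ramificationIdx' w.asIdeal = 1 := by
  have := liesOver_dn v w h
  have h1 : w.asIdeal.inertia (L ≃ₐ[K] L) = ⊥ := by
    rw [eq_bot_iff]
    intro g hg
    exact hI g hg
  have h2 := Ideal.card_inertia_eq_ramificationIdxIn (G := L ≃ₐ[K] L) v.asIdeal w.asIdeal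
  rw [h1] at h2
  rw [Ideal.ramificationIdxIn_eq_ramificationIdx v.asIdeal w.asIdeal (L ≃ₐ[K] L)] at h2
  rw [Ideal.ramificationIdx'_eq_ramificationIdx _ _ v.ne_bot]
  simpa using h2.symm

theorem UNRV : UNRVStmt := by
  intro K L _ _ _ _ _ _ v w h hI x
  have := liesOver_dn v w h
  unfold ordv
  rw [← HeightOneSpectrum.valuation_liesOver L v w x, ram_one v w h hI, pow_one]

end Vale.Agent.P022.H269
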