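import Vale.Agent.P022.H269.Unrv

/-!
P022, Artin reciprocity: the valuation of a norm at an unramified prime.
-/

open NumberField IsDedekindDomain Module
open scoped Pointwise

noncomputable section

namespace Vale.Agent.P022.H269

open Vale.Agent.P022.C

variable {K L : Type} [Field K] [NumberField K] [Field L] [NumberField L] [Algebra K L]

theorem ordv_mul (v : HeightOneSpectrum (𝓞 K)) {x y : K} (hx : x ≠ 0) (hy : y ≠ 0) :
    ordv v (x * y) = ordv v x + ordv v y := by
  unfold ordv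
  rw [map_mul, WithZero.log_mul ((Valuation.ne_zero_iff _).2 hx) ((Valuation.ne_zero_iff _).2 hy)]
  ring

theorem ordv_one (v : HeightOneSpectrum (𝓞 K)) : ordv v (1 : K) = 0 := by simp [ordv]

theorem ordv_prod {ι : Type*} (v : HeightOneSpectrum (𝓞 K)) (s : Finset ι) (f : ι → K)
    (hf : ∀ i ∈ s, f i ≠ 0) : ordv v (∏ i ∈ s, f i) = ∑ i ∈ s, ordv v (f i) := by
  classical
  induction s using Finset.induction_on with
  | empty => simp [ordv_one]
  | insert a s ha ih =>
    rw [Finset.prod_insert ha, Finset.sum_insert ha, ordv_mul v (hf a (Finset.mem_insert_self _ _))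
      (Finset.prod_ne_zero_iff.2 fun i hi => hf i (Finset.mem_insert_of_mem hi)),
      ih fun i hi => hf i (Finset.mem_insert_of_mem hi)]

/-- the valuation of a norm, at an unramified prime -/
theorem ordv_norm [IsGalois K L] (v : HeightOneSpectrum (𝓞 K)) (w : HeightOneSpectrum (𝓞 L))
    (h : dn K w.asIdeal = v.asIdeal)
    (hI : ∀ g : L ≃ₐ[K] L, (∀ x : 𝓞 L, g • x - x ∈ w.asIdeal) → g = 1) (x : L) (hx : x ≠ 0) :
    ordv v (Algebra.norm K x) = ∑ g : L ≃ₐ[K] L, ordv w (g x) := by
  rw [← UNRV K L v w h hI, Algebra.norm_eq_prod_automorphisms]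
  exact ordv_prod w _ _ fun g _ => by simpa using hx

/-- valuations of integers -/
theorem ordv_int (v : HeightOneSpectrum (𝓞 K)) (x : 𝓞 K) :
    ordv v (x : K) = -WithZero.log (v.intValuation x) := by
  unfold ordv
  rw [HeightOneSpectrum.valuation_of_algebraMap]

theorem ordv_eq_zero (v : HeightOneSpectrum (𝓞 K)) {x : 𝓞 K} (hx : x ∉ v.asIdeal) :
    ordv v (x : K) = 0 := by
  rw [ordv_int, (HeightOneSpectrum.intValuation_eq_one_iff).2 hx]
  simp

theorem ordv_eq_one (v : HeightOneSpectrum (𝓞 K)) {x : 𝓞 K} (hx : x ∈ v.asIdeal)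
    (hx2 : x ∉ v.asIdeal ^ 2) : ordv v (x : K) = 1 := by
  have h1 : v.intValuation x ≤ WithZero.exp (-((1 : ℕ) : ℤ)) := by
    rw [HeightOneSpectrum.intValuation_le_pow_iff_mem, pow_one]; exact hx
  have h2 : ¬ v.intValuation x ≤ WithZero.exp (-((2 : ℕ) : ℤ)) := by
    rw [HeightOneSpectrum.intValuation_le_pow_iff_mem]; exact hx2
  have h0 : v.intValuation x ≠ 0 := by
    intro h0; rw [h0] at h2; exact h2 zero_le
  rw [ordv_int]
  rw [← WithZero.log_le_iff_le_exp h0] at h1
  rw [← WithZero.log_le_iff_le_exp h0] at h2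
  push_cast at h1 h2
  omega

/-- an element whose norm has valuation the order of the decomposition group -/
theorem exists_ord [IsGalois K L] (v : HeightOneSpectrum (𝓞 K)) (w : HeightOneSpectrum (𝓞 L))
    (h : dn K w.asIdeal = v.asIdeal)
    (hI : ∀ g : L ≃ₐ[K] L, (∀ x : 𝓞 L, g • x - x ∈ w.asIdeal) → g = 1) :
    ∃ x : 𝓞 L, (x : L) ≠ 0 ∧ ordv v (Algebra.norm K (x : L)) =
      Nat.card (MulAction.stabilizer (L ≃ₐ[K] L) w.asIdeal) := by
  classical
  let G := L ≃ₐ[K] L
  obtain ⟨π, hπ, hπ2⟩ := Ideal.exists_mem_pow_notMem_pow_succ w.asIdeal w.ne_bot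
    w.isPrime.ne_top 1
  rw [pow_one] at hπ
  let S : Finset (Ideal (𝓞 L)) := (Finset.univ : Finset G).image fun g => g • w.asIdeal
  have hmem : ∀ g : G, g • w.asIdeal ∈ S := fun g =>
    Finset.mem_image.2 ⟨g, Finset.mem_univ _, rfl⟩
  have hpr : ∀ P ∈ S, Prime P := by
    intro P hP
    obtain ⟨g, -, rfl⟩ := Finset.mem_image.1 hP
    have h1 : (g • w.asIdeal).IsPrime := inferInstance
    refine Ideal.prime_of_isPrime ?_ h1
    intro h0
    have : w.asIdeal = g⁻¹ • (⊥ : Ideal (𝓞 L)) := by rw [← h0, inv_smul_smul]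
    rw [Ideal.smul_bot] at this
    exact w.ne_bot this
  obtain ⟨y, hy⟩ := IsDedekindDomain.exists_forall_sub_mem_ideal (s := S) (fun P => P)
    (fun _ => 2) hpr (fun P _ Q _ hPQ => hPQ) (fun P => if (P : Ideal (𝓞 L)) = w.asIdeal then π
      else 1)
  have hw : y ∈ w.asIdeal ∧ y ∉ w.asIdeal ^ 2 := by
    have h1 := hy w.asIdeal (by simpa using hmem 1)
    rw [if_pos rfl] at h1
    constructor
    · have h2 : y - π ∈ w.asIdeal := Ideal.pow_le_self two_ne_zero h1
      simpa using Ideal.add_mem _ h2 hπ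
    · intro h2
      apply hπ2
      have := Ideal.sub_mem _ h2 h1
      simpa using this
  have hw' : ∀ g : G, g • w.asIdeal ≠ w.asIdeal → y ∉ g • w.asIdeal := by
    intro g hg hyg
    have h1 := hy (g • w.asIdeal) (hmem g)
    rw [if_neg hg] at h1
    have h2 : y - 1 ∈ g • w.asIdeal := Ideal.pow_le_self two_ne_zero h1
    have h3 : (1 : 𝓞 L) ∈ g • w.asIdeal := by simpa using Ideal.sub_mem _ hyg h2
    have h4 : (g • w.asIdeal).IsPrime := inferInstance
    exact h4.ne_top ((Ideal.eq_top_iff_one _).2 h3)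
  have hy0 : (y : L) ≠ 0 := by
    intro h0
    have : y = 0 := by exact_mod_cast h0
    rw [this] at hw
    exact hw.2 (Ideal.zero_mem _)
  refine ⟨y, hy0, ?_⟩
  rw [ordv_norm v w h hI _ hy0]
  have key : ∀ g : G, ordv w (g (y : L)) = if g⁻¹ • w.asIdeal = w.asIdeal then 1 else 0 := by
    intro g
    have e1 : g (y : L) = ((g • y : 𝓞 L) : L) := rfl
    have e2 : ∀ k : ℕ, g • y ∈ w.asIdeal ^ k ↔ y ∈ (g⁻¹ • w.asIdeal) ^ k := by
      intro k
      rw [← smul_pow', Ideal.mem_inv_pointwise_smul_iff]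
    rw [e1]
    split_ifs with hg
    · apply ordv_eq_one
      · have := (e2 1).2 (by rw [pow_one, hg]; exact hw.1)
        simpa using this
      · intro hc
        exact hw.2 (by simpa [hg] using (e2 2).1 hc)
    · apply ordv_eq_zero
      intro hc
      exact hw' g⁻¹ hg (by simpa using (e2 1).1 (by simpa using hc))
  rw [Finset.sum_congr rfl fun g _ => key g, Finset.sum_boole, Nat.card_eq_fintype_card,
    Fintype.card_subtype]
  congr 2
  ext g
  simp only [Finset.mem_filter, Finset.mem_univ, true_and, MulAction.mem_stabilizer_iff]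
  constructor
  · intro h; rw [inv_smul_eq_iff] at h; exact h.symm
  · intro h; rw [inv_smul_eq_iff]; exact h.symm

end Vale.Agent.P022.H269
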